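import Mathlib
import Vale.Agent.Lib.P162.Defs
import Vale.Agent.Lib.P162.RDefs
import Vale.Agent.Lib.P162.CVDefs
import Vale.Agent.Lib.P162.helper93.Gap
import Vale.Agent.Lib.P162.helper36.MoveInj
import Vale.Agent.Lib.P162.helper95.KmatBasic

/-!
# P162 pool job CV10 (helper72): Doeblin minorization

From any two holes the two walkers meet at time `7 L + 1` with probability at least
`1 / (16 h)`.  The matrix part is proved for abstract matrices first.
-/

namespace Vale.Agent.Lib.P162.H72CV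

open Finset BigOperators

/-- Support propagation for powers of a matrix. -/
theorem abs_support {S : Type*} [Fintype S] [DecidableEq S] (A : Matrix S S ℝ) (Good : S → Prop)
    (hstep : ∀ a b, Good a → A a b ≠ 0 → Good b) :
    ∀ (N : ℕ) (a b : S), Good a → (A ^ N) a b ≠ 0 → Good b := by
  intro N
  induction N with
  | zero =>
    intro a b ha hne
    rw [pow_zero, Matrix.one_apply] at hne
    by_cases hab : a = b
    · rw [← hab]
      exact ha
    · rw [if_neg hab] at hne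
      exact absurd rfl hne
  | succ N ih =>
    intro a b ha hne
    rw [pow_succ, Matrix.mul_apply] at hne
    obtain ⟨c, _, hc⟩ := Finset.exists_ne_zero_of_sum_ne_zero hne
    exact hstep c b (ih a c ha (left_ne_zero_of_mul hc)) (right_ne_zero_of_mul hc)

/-- Entrywise comparison of powers along the good states. -/
theorem abs_compare {S : Type*} [Fintype S] [DecidableEq S] (A Q : Matrix S S ℝ)
    (Good T : S → Prop) (hA0 : ∀ a b, 0 ≤ A a b) (hQnn : ∀ (t : ℕ) (a b : S), 0 ≤ (Q ^ t) a b)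
    (hstep : ∀ a b, Good a → A a b ≠ 0 → Good b) (hGT : ∀ c, Good c → T c)
    (hAQ : ∀ a c, Good a → T c → A a c ≤ Q a c) :
    ∀ (N : ℕ) (a b : S), Good a → T b → (A ^ N) a b ≤ (Q ^ N) a b := by
  have hQ0 : ∀ a b, 0 ≤ Q a b := by
    intro a b
    have h1 := hQnn 1 a b
    rw [pow_one] at h1
    exact h1
  intro N
  induction N with
  | zero =>
    intro a b _ _
    rw [pow_zero, pow_zero]
  | succ N ih =>
    intro a b ha hb
    rw [pow_succ', pow_succ', Matrix.mul_apply, Matrix.mul_apply]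
    refine Finset.sum_le_sum fun c _ => ?_
    by_cases hz : A a c = 0
    · rw [hz, zero_mul]
      exact mul_nonneg (hQ0 a c) (hQnn N c b)
    · have hc : Good c := hstep a c ha hz
      exact mul_le_mul (hAQ a c ha (hGT c hc)) (ih c b hc hb)
        (H93.H93_pow_nonneg A hA0 N c b) (hQ0 a c)

/-- The abstract minorization: the killed chain, restricted to the set `Pt` at time `N`,
followed by one step in which the target family is hit with probability at least one half. -/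
theorem abs_minor {S V X : Type*} [Fintype S] [DecidableEq S] [Fintype V] [Fintype X]
    (A Q : Matrix S S ℝ) (Good T : S → Prop) (Pt : Finset S) (g : V → X → S)
    (hA0 : ∀ a b, 0 ≤ A a b) (hQnn : ∀ (t : ℕ) (a b : S), 0 ≤ (Q ^ t) a b)
    (hstep : ∀ a b, Good a → A a b ≠ 0 → Good b) (hGT : ∀ c, Good c → T c)
    (hAQ : ∀ a c, Good a → T c → A a c ≤ Q a c)
    (hmerge : ∀ c, Good c → c ∈ Pt → (1 / 2 : ℝ) ≤ ∑ v, ∑ x, Q c (g v x))
    (N : ℕ) (u : S) (hu : Good u) :
    (1 / 2 : ℝ) * ∑ c ∈ Pt, (A ^ N) u c ≤ ∑ v, ∑ x, (Q ^ (N + 1)) u (g v x) := by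
  have hQ0 : ∀ a b, 0 ≤ Q a b := by
    intro a b
    have h1 := hQnn 1 a b
    rw [pow_one] at h1
    exact h1
  have hM : ∀ c, 0 ≤ ∑ v, ∑ x, Q c (g v x) := fun c =>
    Finset.sum_nonneg fun v _ => Finset.sum_nonneg fun x _ => hQ0 c (g v x)
  have hsum : ∑ v, ∑ x, (Q ^ (N + 1)) u (g v x)
      = ∑ c, (Q ^ N) u c * ∑ v, ∑ x, Q c (g v x) := by
    calc ∑ v, ∑ x, (Q ^ (N + 1)) u (g v x)
        = ∑ v, ∑ x, ∑ c, (Q ^ N) u c * Q c (g v x) := by
          refine Finset.sum_congr rfl fun v _ => Finset.sum_congr rfl fun x _ => ?_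
          rw [pow_succ, Matrix.mul_apply]
      _ = ∑ v, ∑ c, ∑ x, (Q ^ N) u c * Q c (g v x) :=
          Finset.sum_congr rfl fun v _ => Finset.sum_comm
      _ = ∑ c, ∑ v, ∑ x, (Q ^ N) u c * Q c (g v x) := Finset.sum_comm
      _ = ∑ c, (Q ^ N) u c * ∑ v, ∑ x, Q c (g v x) := by
          refine Finset.sum_congr rfl fun c _ => ?_
          rw [Finset.mul_sum]
          refine Finset.sum_congr rfl fun v _ => ?_
          rw [Finset.mul_sum]
  rw [hsum, Finset.mul_sum]
  calc ∑ c ∈ Pt, 1 / 2 * (A ^ N) u c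
      ≤ ∑ c ∈ Pt, (Q ^ N) u c * ∑ v, ∑ x, Q c (g v x) := by
        refine Finset.sum_le_sum fun c hc => ?_
        by_cases hz : (A ^ N) u c = 0
        · rw [hz, mul_zero]
          exact mul_nonneg (hQnn N u c) (hM c)
        · have hgood : Good c := abs_support A Good hstep N u c hu hz
          have h1 : (A ^ N) u c ≤ (Q ^ N) u c :=
            abs_compare A Q Good T hA0 hQnn hstep hGT hAQ N u c hu (hGT c hgood)
          have h2 := hmerge c hgood hc
          rw [mul_comm]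
          exact mul_le_mul h1 h2 (by norm_num) (hQnn N u c)
    _ ≤ ∑ c, (Q ^ N) u c * ∑ v, ∑ x, Q c (g v x) :=
        Finset.sum_le_sum_of_subset_of_nonneg (Finset.subset_univ _)
          fun c _ _ => mul_nonneg (hQnn N u c) (hM c)

/-- One step of the tracked chain keeps the positions distinct. -/
theorem step_inj (h k : ℕ) [NeZero h] (a b : Fin k → ZMod (2 * h)) (ha : Function.Injective a)
    (hne : stepProb h k a b ≠ 0) : Function.Injective b := by
  obtain ⟨c, hc⟩ := H93.H93_step_witness h k a b hne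
  intro i i' hii
  apply ha
  apply H36.move_injective h c
  rw [hc i, hc i', hii]

/-- The real arithmetic of the minorization constant. -/
theorem arith (n L X β : ℝ) (hL : 1 ≤ L) (hn : 15776 * L ^ 2 ≤ n) (hX : 1 / n ≤ X)
    (hβ0 : 0 ≤ β) (hβ : β ≤ 4 / n) :
    1 / (4 * n) ≤ X - 2592 * L ^ 2 / n ^ 2 - (X + 2592 * L ^ 2 / n ^ 2) / 2
      - (7 * L) * β ^ 2 / 2 := by
  have hL2 : L ≤ L ^ 2 := by nlinarith
  have hn0 : 0 < n := by nlinarith
  have hβ2 : β ^ 2 ≤ 16 / n ^ 2 := by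
    have h1 : β ^ 2 ≤ (4 / n) ^ 2 := by gcongr
    have h2 : (4 / n) ^ 2 = 16 / n ^ 2 := by
      rw [div_pow]
      norm_num
    rw [h2] at h1
    exact h1
  have h3 : (7 * L) * β ^ 2 / 2 ≤ 56 * L / n ^ 2 := by
    have h4 : (7 * L) * β ^ 2 ≤ (7 * L) * (16 / n ^ 2) :=
      mul_le_mul_of_nonneg_left hβ2 (by linarith)
    have h5 : (7 * L) * (16 / n ^ 2) / 2 = 56 * L / n ^ 2 := by ring
    linarith
  have key : (3888 * L ^ 2 + 56 * L) / n ^ 2 ≤ 1 / (4 * n) := by
    rw [div_le_div_iff₀ (by positivity) (by positivity)]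
    nlinarith [mul_nonneg hn0.le (sub_nonneg.mpr hn)]
  have h6 : (3888 * L ^ 2 + 56 * L) / n ^ 2 = 3888 * L ^ 2 / n ^ 2 + 56 * L / n ^ 2 := by
    rw [add_div]
  have h7 : 2592 * L ^ 2 / n ^ 2 * (3 / 2) = 3888 * L ^ 2 / n ^ 2 := by ring
  have h8 : 1 / n = 1 / (4 * n) + 1 / (4 * n) + 1 / (4 * n) + 1 / (4 * n) := by
    field_simp
    ring
  linarith

theorem minor_of (h j : ℕ) [NeZero h]
    (hQnn : ∀ (t : ℕ) (u y : Fin (j + 2) → ZMod (2 * h)), 0 ≤ (Qmat h j ^ t) u y)
    (hdef : ∀ (t : ℕ) (p : ZMod (2 * h)) (w : Fin j → ZMod (2 * h)),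
      Function.Injective (Fin.cons p w : Fin (j + 1) → ZMod (2 * h)) →
      (defect h j t (Fin.cons p w)) ^ 2
        ≤ ((2 * h : ℝ) - j) * Dcol h j t (Fin.cons p (Fin.cons p w)) - 1)
    (hQK : ∀ (u y : Fin (j + 2) → ZMod (2 * h)), Function.Injective u → y 0 ≠ y 1 →
      (if u 1 = u 0 + (h : ZMod (2 * h)) then (1 / 2 : ℝ) else 1) * Kmat h (j + 2) u y
        ≤ Qmat h j u y)
    (hmerge : ∀ (u : Fin (j + 2) → ZMod (2 * h)), Function.Injective u →
      u 1 = u 0 + (h : ZMod (2 * h)) →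
      (1 / 2 : ℝ) ≤ ∑ v : Fin j → ZMod (2 * h), ∑ x : ZMod (2 * h),
        Qmat h j u (Fin.cons x (Fin.cons x v) : Fin (j + 2) → ZMod (2 * h)))
    (hreach : ∀ (u : Fin (j + 2) → ZMod (2 * h)), u 0 ≠ u 1 →
      1 / ((2 * h : ℝ) - 1) - 2592 * (Nat.clog 2 (2 * h) : ℝ) ^ 2 / (2 * h : ℝ) ^ 2
          - (1 / ((2 * h : ℝ) - 1) + 2592 * (Nat.clog 2 (2 * h) : ℝ) ^ 2 / (2 * h : ℝ) ^ 2) / 2
          - ((7 * Nat.clog 2 (2 * h) : ℕ) : ℝ) * (1 / 2 ^ Nat.log 2 h) ^ 2 / 2
        ≤ ∑ b ∈ univ.filter (fun y : Fin (j + 2) → ZMod (2 * h) =>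
              y 1 = y 0 + (h : ZMod (2 * h))),
            ((Matrix.of fun (a b : Fin (j + 2) → ZMod (2 * h)) =>
              (if a 1 = a 0 + (h : ZMod (2 * h)) then (1 / 2 : ℝ) else 1)
                * Kmat h (j + 2) a b) ^ (7 * Nat.clog 2 (2 * h))) u b)
    (hn : 15776 * Nat.clog 2 (2 * h) ^ 2 ≤ 2 * h)
    (v : Fin j → ZMod (2 * h)) (q q' : ZMod (2 * h)) (hv : Function.Injective v)
    (hq : ∀ i, q ≠ v i) (hq' : ∀ i, q' ≠ v i) :
    1 / (16 * (h : ℝ))
      ≤ Dcol h j (7 * Nat.clog 2 (2 * h) + 1) (Fin.cons q (Fin.cons q' v)) := by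
  have hh : 0 < h := Nat.pos_of_ne_zero (NeZero.ne h)
  have hhR : (0 : ℝ) < (h : ℝ) := Nat.cast_pos.mpr hh
  have hLpos : 0 < Nat.clog 2 (2 * h) := Nat.clog_pos (by norm_num) (by omega)
  have hLR : (1 : ℝ) ≤ (Nat.clog 2 (2 * h) : ℝ) := by exact_mod_cast hLpos
  have hnR : 15776 * (Nat.clog 2 (2 * h) : ℝ) ^ 2 ≤ 2 * (h : ℝ) := by exact_mod_cast hn
  have hqv : Function.Injective (Fin.cons q v : Fin (j + 1) → ZMod (2 * h)) := by
    refine Fin.cons_injective_iff.mpr ⟨?_, hv⟩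
    rintro ⟨i, hi⟩
    exact hq i hi.symm
  have hq'v : Function.Injective (Fin.cons q' v : Fin (j + 1) → ZMod (2 * h)) := by
    refine Fin.cons_injective_iff.mpr ⟨?_, hv⟩
    rintro ⟨i, hi⟩
    exact hq' i hi.symm
  by_cases hqq : q = q'
  · -- the two walkers start together
    rw [← hqq]
    have h1 := hdef (7 * Nat.clog 2 (2 * h) + 1) q v hqv
    have hcard : j + 1 ≤ 2 * h := by
      have h2 := Fintype.card_le_of_injective _ hqv
      rw [Fintype.card_fin, ZMod.card] at h2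
      exact h2
    have hm1 : (1 : ℝ) ≤ (2 * h : ℝ) - j := by
      have h3 : ((j + 1 : ℕ) : ℝ) ≤ ((2 * h : ℕ) : ℝ) := Nat.cast_le.mpr hcard
      push_cast at h3
      linarith
    have hm2 : (2 * h : ℝ) - j ≤ 2 * h := by
      have h4 : (0 : ℝ) ≤ (j : ℝ) := Nat.cast_nonneg j
      linarith
    have h5 : 1 ≤ ((2 * h : ℝ) - j)
        * Dcol h j (7 * Nat.clog 2 (2 * h) + 1) (Fin.cons q (Fin.cons q v)) := by
      have h6 := sq_nonneg (defect h j (7 * Nat.clog 2 (2 * h) + 1) (Fin.cons q v))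
      linarith
    have hD0 : 0 ≤ Dcol h j (7 * Nat.clog 2 (2 * h) + 1) (Fin.cons q (Fin.cons q v)) := by
      by_contra hneg
      have h7 := not_le.mp hneg
      have h8 : ((2 * h : ℝ) - j)
          * Dcol h j (7 * Nat.clog 2 (2 * h) + 1) (Fin.cons q (Fin.cons q v)) ≤ 0 :=
        mul_nonpos_of_nonneg_of_nonpos (by linarith) h7.le
      linarith
    have h9 : 1 ≤ (2 * (h : ℝ))
        * Dcol h j (7 * Nat.clog 2 (2 * h) + 1) (Fin.cons q (Fin.cons q v)) := by
      have h10 := mul_le_mul_of_nonneg_right hm2 hD0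
      linarith
    have h11 : 1 / (16 * (h : ℝ)) ≤ 1 / (2 * (h : ℝ)) := by
      apply one_div_le_one_div_of_le (by positivity)
      linarith
    have h12 : 1 / (2 * (h : ℝ))
        ≤ Dcol h j (7 * Nat.clog 2 (2 * h) + 1) (Fin.cons q (Fin.cons q v)) := by
      rw [div_le_iff₀ (by positivity)]
      linarith
    linarith
  · -- the two walkers start in distinct holes
    have hu : Function.Injective (Fin.cons q (Fin.cons q' v) : Fin (j + 2) → ZMod (2 * h)) := by
      refine Fin.cons_injective_iff.mpr ⟨?_, hq'v⟩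
      rintro ⟨i, hi⟩
      revert hi
      refine Fin.cases ?_ (fun i => ?_) i
      · intro hi
        rw [Fin.cons_zero] at hi
        exact hqq hi.symm
      · intro hi
        rw [Fin.cons_succ] at hi
        exact hq i hi.symm
    have hu01 : (Fin.cons q (Fin.cons q' v) : Fin (j + 2) → ZMod (2 * h)) 0
        ≠ (Fin.cons q (Fin.cons q' v) : Fin (j + 2) → ZMod (2 * h)) 1 := by
      intro h01
      exact Fin.zero_ne_one (hu h01)
    have hR := hreach (Fin.cons q (Fin.cons q' v)) hu01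
    have hA0 : ∀ a b : Fin (j + 2) → ZMod (2 * h),
        0 ≤ (Matrix.of fun (a b : Fin (j + 2) → ZMod (2 * h)) =>
          (if a 1 = a 0 + (h : ZMod (2 * h)) then (1 / 2 : ℝ) else 1)
            * Kmat h (j + 2) a b) a b := by
      intro a b
      show 0 ≤ (if a 1 = a 0 + (h : ZMod (2 * h)) then (1 / 2 : ℝ) else 1) * stepProb h (j + 2) a b
      refine mul_nonneg ?_ (H95.stepProb_nonneg h (j + 2) a b)
      by_cases hc : a 1 = a 0 + (h : ZMod (2 * h))
      · rw [if_pos hc]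
        norm_num
      · rw [if_neg hc]
        norm_num
    have hmain := abs_minor
      (Matrix.of fun (a b : Fin (j + 2) → ZMod (2 * h)) =>
          (if a 1 = a 0 + (h : ZMod (2 * h)) then (1 / 2 : ℝ) else 1) * Kmat h (j + 2) a b)
      (Qmat h j) Function.Injective (fun c => c 0 ≠ c 1)
      (univ.filter (fun y : Fin (j + 2) → ZMod (2 * h) => y 1 = y 0 + (h : ZMod (2 * h))))
      (fun (v : Fin j → ZMod (2 * h)) (x : ZMod (2 * h)) =>
        (Fin.cons x (Fin.cons x v) : Fin (j + 2) → ZMod (2 * h)))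
      hA0 hQnn
      (fun a b ha hne => step_inj h (j + 2) a b ha (right_ne_zero_of_mul hne))
      (fun c hc h01 => Fin.zero_ne_one (hc h01))
      (fun a c ha hT => hQK a c ha hT)
      (fun c hc hmem => hmerge c hc (Finset.mem_filter.mp hmem).2)
      (7 * Nat.clog 2 (2 * h)) (Fin.cons q (Fin.cons q' v)) hu
    rw [Dcol_apply]
    refine le_trans ?_ hmain
    -- arithmetic
    have hlog : h < 2 ^ (Nat.log 2 h + 1) := Nat.lt_pow_succ_log_self (by norm_num) h
    have hlogR : (h : ℝ) < 2 ^ (Nat.log 2 h) * 2 := by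
      have h1 : ((h : ℕ) : ℝ) < ((2 ^ (Nat.log 2 h + 1) : ℕ) : ℝ) := Nat.cast_lt.mpr hlog
      push_cast at h1
      rw [pow_succ] at h1
      exact h1
    have hpow : (0 : ℝ) < 2 ^ (Nat.log 2 h) := by positivity
    have hβ0 : (0 : ℝ) ≤ 1 / 2 ^ Nat.log 2 h := by positivity
    have hβ : (1 : ℝ) / 2 ^ Nat.log 2 h ≤ 4 / (2 * (h : ℝ)) := by
      rw [div_le_div_iff₀ hpow (by positivity)]
      linarith
    have hn1 : (1 : ℝ) < 2 * (h : ℝ) := by nlinarith
    have hX : 1 / (2 * (h : ℝ)) ≤ 1 / ((2 * h : ℝ) - 1) := by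
      apply one_div_le_one_div_of_le (by linarith)
      linarith
    have hcast : ((7 * Nat.clog 2 (2 * h) : ℕ) : ℝ) = 7 * (Nat.clog 2 (2 * h) : ℝ) := by
      push_cast
      ring
    have har := arith (2 * (h : ℝ)) (Nat.clog 2 (2 * h) : ℝ) (1 / ((2 * h : ℝ) - 1))
      (1 / 2 ^ Nat.log 2 h) hLR hnR hX hβ0 hβ
    rw [hcast] at hR
    have h16 : 1 / (16 * (h : ℝ)) = 1 / 2 * (1 / (4 * (2 * (h : ℝ)))) := by
      field_simp
      ring
    rw [h16]
    refine mul_le_mul_of_nonneg_left ?_ (by norm_num)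
    linarith

end Vale.Agent.Lib.P162.H72CV
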